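import Mathlib

/-!
# Barker sequences of odd length (Turyn-Storer theorem)

A sequence of signs `a 0, …, a (n-1)` whose aperiodic autocorrelations
`∑_{j < n-u} a j * a (j+u)`, `1 ≤ u < n`, have absolute value at most one, `n` odd:
then `n` is one of `1, 3, 5, 7, 11, 13`.
-/

set_option linter.all false

namespace Vale.Agent.P033.H904

open Finset

/-- aperiodic autocorrelation -/
def Cc (n : ℕ) (a : ℕ → ℤ) (u : ℕ) : ℤ := ∑ j ∈ range (n - u), a j * a (j + u)

theorem sum_mod_four (x : ℕ → ℤ) (hx : ∀ j, x j = 1 ∨ x j = -1) (m : ℕ) :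
    ((∑ j ∈ range m, x j) - (m - 1 + ∏ j ∈ range m, x j)) % 4 = 0 ∧
      ((∏ j ∈ range m, x j) = 1 ∨ (∏ j ∈ range m, x j) = -1) := by
  induction m with
  | zero => simp
  | succ m ih =>
    obtain ⟨h1, h2⟩ := ih
    rw [sum_range_succ, prod_range_succ]
    push_cast
    rcases h2 with h2 | h2 <;> rcases hx m with h3 | h3 <;> rw [h2] at h1 ⊢ <;> rw [h3] <;>
      constructor <;> first | omega | (left; norm_num; done) | (right; norm_num; done)

/-- prefix products -/
def pr (a : ℕ → ℤ) (k : ℕ) : ℤ := ∏ j ∈ range k, a j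

theorem pr_pm {a : ℕ → ℤ} (ha : ∀ j, a j = 1 ∨ a j = -1) (k : ℕ) : pr a k = 1 ∨ pr a k = -1 :=
  (sum_mod_four a ha k).2

theorem pr_succ (a : ℕ → ℤ) (k : ℕ) : pr a (k + 1) = pr a k * a k := by
  unfold pr
  rw [prod_range_succ]

theorem sq_one {x : ℤ} (h : x = 1 ∨ x = -1) : x * x = 1 := by
  rcases h with h | h <;> rw [h] <;> norm_num

theorem prod_shift {a : ℕ → ℤ} (ha : ∀ j, a j = 1 ∨ a j = -1) {n u : ℕ} (hu : u ≤ n) :
    ∏ j ∈ range (n - u), a j * a (j + u) = pr a n * pr a u * pr a (n - u) := by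
  rw [prod_mul_distrib]
  have h1 : pr a n = pr a u * ∏ j ∈ range (n - u), a (j + u) := by
    unfold pr
    have : n = u + (n - u) := by omega
    conv_lhs => rw [this]
    rw [prod_range_add]
    congr 1
    exact prod_congr rfl fun j _ => by rw [add_comm]
  rw [h1]
  have h2 := sq_one (pr_pm ha u)
  unfold pr at h2 ⊢
  linear_combination (-(∏ j ∈ range (n - u), a j) * (∏ j ∈ range (n - u), a (j + u))) * h2

/-- the fourth residue of the autocorrelation -/
theorem corr_mod {a : ℕ → ℤ} (ha : ∀ j, a j = 1 ∨ a j = -1) {n u : ℕ} (hu : u ≤ n) :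
    (Cc n a u - (n - u - 1 + pr a n * pr a u * pr a (n - u))) % 4 = 0 := by
  have h := (sum_mod_four (fun j => a j * a (j + u)) (fun j => by
    rcases ha j with h1 | h1 <;> rcases ha (j + u) with h2 | h2 <;> simp only [h1, h2] <;>
      norm_num) (n - u)).1
  rw [prod_shift ha hu, Nat.cast_sub hu] at h
  exact h

/-- the sign `1` for `n = 1 mod 4`, `-1` otherwise -/
def ep (n : ℕ) : ℤ := if n % 4 = 1 then 1 else -1

theorem mul_pm {x y : ℤ} (hx : x = 1 ∨ x = -1) (hy : y = 1 ∨ y = -1) : x * y = 1 ∨ x * y = -1 := by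
  rcases hx with h | h <;> rcases hy with h' | h' <;> rw [h, h'] <;> norm_num

/-- values of the autocorrelations and of the products of signs, `n` odd -/
theorem corr_val {a : ℕ → ℤ} (ha : ∀ j, a j = 1 ∨ a j = -1) {n : ℕ} (hn : n % 2 = 1)
    (hC : ∀ u, 1 ≤ u → u < n → |Cc n a u| ≤ 1) {u : ℕ} (hu1 : 1 ≤ u) (hu : u < n) :
    (u % 2 = 1 → Cc n a u = 0 ∧
      (pr a n * pr a u * pr a (n - u) - (u + 1 - n)) % 4 = 0) ∧
    (u % 2 = 0 → Cc n a u = ep n ∧ (pr a n * pr a u * pr a (n - u) - (1 - u)) % 4 = 0) := by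
  have h1 := corr_mod ha (n := n) (u := u) hu.le
  have h2 := corr_mod ha (n := n) (u := n - u) (by omega)
  have h3 : n - (n - u) = u := by omega
  rw [h3, Nat.cast_sub hu.le] at h2
  have hP := mul_pm (mul_pm (pr_pm ha n) (pr_pm ha u)) (pr_pm ha (n - u))
  have h4 : pr a n * pr a (n - u) * pr a u = pr a n * pr a u * pr a (n - u) := by ring
  rw [h4] at h2
  have c1 := abs_le.1 (hC u hu1 hu)
  have c2 := abs_le.1 (hC (n - u) (by omega) (by omega))
  generalize pr a n * pr a u * pr a (n - u) = P at *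
  generalize Cc n a u = c at *
  generalize Cc n a (n - u) = c' at *
  unfold ep
  constructor
  · intro hu2
    rcases hP with rfl | rfl <;> constructor <;> omega
  · intro hu2
    rcases hP with rfl | rfl <;> split_ifs <;> constructor <;> omega

theorem prod_val {a : ℕ → ℤ} (ha : ∀ j, a j = 1 ∨ a j = -1) {n : ℕ} (hn : n % 2 = 1)
    (hC : ∀ u, 1 ≤ u → u < n → |Cc n a u| ≤ 1) {u : ℕ} (hu : u ≤ n) :
    (u % 2 = 1 → (pr a n * pr a u * pr a (n - u) - (u + 1 - n)) % 4 = 0) ∧
    (u % 2 = 0 → (pr a n * pr a u * pr a (n - u) - (1 - u)) % 4 = 0) := by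
  rcases Nat.eq_zero_or_pos u with h0 | h0
  · subst h0
    have h1 : pr a 0 = 1 := by simp [pr]
    have h2 := sq_one (pr_pm ha n)
    refine ⟨fun h => by omega, fun _ => ?_⟩
    rw [h1, mul_one, Nat.sub_zero, h2]
    norm_num
  rcases Nat.lt_or_ge u n with h | h
  · have := corr_val ha hn hC h0 h
    exact ⟨fun h => (this.1 h).2, fun h => (this.2 h).2⟩
  · have : u = n := by omega
    subst this
    have h1 : pr a 0 = 1 := by simp [pr]
    have h2 := sq_one (pr_pm ha u)
    refine ⟨fun _ => ?_, fun h => by omega⟩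
    rw [Nat.sub_self, h1, mul_one, h2]
    omega

/-- skew symmetry -/
theorem skew {a : ℕ → ℤ} (ha : ∀ j, a j = 1 ∨ a j = -1) {n : ℕ} (hn : n % 2 = 1)
    (hC : ∀ u, 1 ≤ u → u < n → |Cc n a u| ≤ 1) {u : ℕ} (hu : u < n) :
    a (n - 1 - u) = ep n * (-1) ^ u * a u := by
  have h1 := prod_val ha hn hC (u := u) hu.le
  have h2 := prod_val ha hn hC (u := u + 1) (by omega)
  have h3 : n - u = (n - 1 - u) + 1 := by omega
  have h4 : n - (u + 1) = n - 1 - u := by omega
  rw [h4, pr_succ] at h2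
  rw [h3, pr_succ] at h1
  have e1 := sq_one (pr_pm ha n)
  have e2 := sq_one (pr_pm ha u)
  have e3 := sq_one (pr_pm ha (n - 1 - u))
  have p1 := mul_pm (mul_pm (pr_pm ha n) (pr_pm ha u)) (mul_pm (pr_pm ha (n - 1 - u)) (ha (n - 1 - u)))
  have p2 := mul_pm (mul_pm (pr_pm ha n) (mul_pm (pr_pm ha u) (ha u))) (pr_pm ha (n - 1 - u))
  have h5 : (pr a n * pr a u * (pr a (n - 1 - u) * a (n - 1 - u))) *
      (pr a n * (pr a u * a u) * pr a (n - 1 - u)) = a (n - 1 - u) * a u := by
    linear_combination (a (n - 1 - u) * a u * (pr a u * pr a u) *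
      (pr a (n - 1 - u) * pr a (n - 1 - u))) * e1 + (a (n - 1 - u) * a u *
      (pr a (n - 1 - u) * pr a (n - 1 - u))) * e2 + (a (n - 1 - u) * a u) * e3
  generalize pr a n * pr a u * (pr a (n - 1 - u) * a (n - 1 - u)) = P at *
  generalize pr a n * (pr a u * a u) * pr a (n - 1 - u) = Q at *
  have key : P * Q = ep n * (-1) ^ u := by
    push_cast at h1 h2
    unfold ep
    rcases Nat.even_or_odd u with he | ho
    · rw [he.neg_one_pow]
      have hu2 : u % 2 = 0 := Nat.even_iff.1 he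
      have g1 := h1.2 hu2
      have g2 := h2.1 (by omega)
      rcases p1 with rfl | rfl <;> rcases p2 with rfl | rfl <;> split_ifs <;> omega
    · rw [ho.neg_one_pow]
      have hu2 : u % 2 = 1 := Nat.odd_iff.1 ho
      have g1 := h1.1 hu2
      have g2 := h2.2 (by omega)
      rcases p1 with rfl | rfl <;> rcases p2 with rfl | rfl <;> split_ifs <;> omega
  rw [← key, h5]
  have := sq_one (ha u)
  linear_combination (-a (n - 1 - u)) * this

theorem corr_even {a : ℕ → ℤ} (ha : ∀ j, a j = 1 ∨ a j = -1) {n : ℕ} (hn : n % 2 = 1)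
    (hC : ∀ u, 1 ≤ u → u < n → |Cc n a u| ≤ 1) {u : ℕ} (hu1 : 1 ≤ u) (hu : u < n)
    (h2 : u % 2 = 0) : Cc n a u = ep n :=
  ((corr_val ha hn hC hu1 hu).2 h2).1

theorem ep_sq (n : ℕ) : ep n * ep n = 1 := by
  unfold ep
  split_ifs <;> norm_num

/-- the twisted convolution is one at even places -/
theorem conv_one {a : ℕ → ℤ} (ha : ∀ j, a j = 1 ∨ a j = -1) {n : ℕ} (hn : n % 2 = 1)
    (hC : ∀ u, 1 ≤ u → u < n → |Cc n a u| ≤ 1) {u : ℕ} (hu : u + 3 ≤ n) (h2 : u % 2 = 0) :
    ∑ p ∈ antidiagonal u, a p.1 * ((-1) ^ p.2 * a p.2) = 1 := by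
  have h1 := corr_even ha hn hC (u := n - 1 - u) (by omega) (by omega) (by omega)
  unfold Cc at h1
  have h3 : n - (n - 1 - u) = u + 1 := by omega
  rw [h3] at h1
  rw [Finset.Nat.sum_antidiagonal_eq_sum_range_succ_mk]
  have h4 : ∀ j ∈ range (u + 1), a j * a (j + (n - 1 - u)) =
      ep n * (a j * ((-1) ^ (u - j) * a (u - j))) := by
    intro j hj
    have hj' := mem_range.1 hj
    have h5 : j + (n - 1 - u) = n - 1 - (u - j) := by omega
    rw [h5, skew ha hn hC (u := u - j) (by omega)]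
    ring
  rw [sum_congr rfl h4, ← mul_sum] at h1
  have h6 := ep_sq n
  have h7 : ep n * (ep n * ∑ j ∈ range (u + 1), a j * ((-1) ^ (u - j) * a (u - j))) = ep n * ep n := by
    rw [h1]
  rw [← mul_assoc, h6, one_mul] at h7
  exact h7

/-- half differences -/
def b (a : ℕ → ℤ) (t : ℕ) : ℤ := if t = 0 then 0 else (a t - a (t - 1)) / 2

theorem two_b {a : ℕ → ℤ} (ha : ∀ j, a j = 1 ∨ a j = -1) (t : ℕ) :
    2 * b a (t + 1) = a (t + 1) - a t := by
  unfold b
  rw [if_neg (by omega)]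
  simp only [Nat.add_sub_cancel]
  rcases ha (t + 1) with h | h <;> rcases ha t with h' | h' <;> rw [h, h'] <;> norm_num

theorem b_zero (a : ℕ → ℤ) : b a 0 = 0 := by simp [b]

open PowerSeries in
/-- **the recursion for the half differences** -/
theorem b_rec {a : ℕ → ℤ} (ha : ∀ j, a j = 1 ∨ a j = -1) (ha0 : a 0 = 1) {n : ℕ} (hn : n % 2 = 1)
    (hC : ∀ u, 1 ≤ u → u < n → |Cc n a u| ≤ 1) {k : ℕ} (hk1 : 1 ≤ k) (hk : 2 * k + 3 ≤ n) :
    b a (2 * k) = - ∑ p ∈ antidiagonal (2 * k), b a p.1 * ((-1) ^ p.2 * b a p.2) := by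
  set A : ℤ⟦X⟧ := PowerSeries.mk a with hA
  set D : ℤ⟦X⟧ := PowerSeries.mk (b a) with hD
  set A' : ℤ⟦X⟧ := rescale (-1 : ℤ) A with hA'
  set D' : ℤ⟦X⟧ := rescale (-1 : ℤ) D with hD'
  have hB : (1 - X) * A = 1 + 2 * D := by
    ext t
    cases t with
    | zero =>
      simp [hA, hD, ha0, b_zero]
    | succ t =>
      have h1 := two_b ha t
      rw [sub_mul, one_mul, map_sub, mul_comm X A, coeff_succ_mul_X, map_add,
        show (2 : ℤ⟦X⟧) = C (2 : ℤ) by simp, coeff_C_mul, coeff_one, if_neg (by omega)]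
      simp only [hA, hD, coeff_mk]
      linarith
  have hB' : (1 + X) * A' = 1 + 2 * D' := by
    have h := congrArg (rescale (-1 : ℤ)) hB
    rw [map_mul, map_sub, map_one, map_add, map_one, map_mul, rescale_neg_one_X, sub_neg_eq_add] at h
    rw [hA', hD', h, map_ofNat]
  have hE : (1 - X ^ 2) * (A * A') = 1 + 2 * (D + D') + 4 * (D * D') := by
    calc (1 - X ^ 2) * (A * A') = ((1 - X) * A) * ((1 + X) * A') := by ring
      _ = (1 + 2 * D) * (1 + 2 * D') := by rw [hB, hB']
      _ = _ := by ring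
  obtain ⟨m, rfl⟩ : ∃ m, k = m + 1 := ⟨k - 1, by omega⟩
  have hc := congrArg (coeff (2 * (m + 1))) hE
  have e1 : coeff (2 * (m + 1)) (A * A') = 1 := by
    rw [coeff_mul]
    simp only [hA, hA', coeff_rescale, coeff_mk]
    exact conv_one ha hn hC (by omega) (by omega)
  have e2 : coeff (2 * m) (A * A') = 1 := by
    rw [coeff_mul]
    simp only [hA, hA', coeff_rescale, coeff_mk]
    exact conv_one ha hn hC (by omega) (by omega)
  have e3 : coeff (2 * (m + 1)) ((1 - X ^ 2) * (A * A')) = 0 := by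
    rw [sub_mul, one_mul, map_sub, e1, mul_comm (X ^ 2) (A * A'), show 2 * (m + 1) = 2 * m + 2 by ring,
      coeff_mul_X_pow, e2, sub_self]
  rw [e3, show (2 : ℤ⟦X⟧) = C (2 : ℤ) by simp, show (4 : ℤ⟦X⟧) = C (4 : ℤ) by simp, map_add, map_add,
    coeff_C_mul, coeff_C_mul, map_add, coeff_one, if_neg (by omega)] at hc
  have e4 : coeff (2 * (m + 1)) (D * D') =
      ∑ p ∈ antidiagonal (2 * (m + 1)), b a p.1 * ((-1) ^ p.2 * b a p.2) := by
    rw [coeff_mul]
    simp only [hD, hD', coeff_rescale, coeff_mk]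
  have e5 : coeff (2 * (m + 1)) D' = b a (2 * (m + 1)) := by
    simp only [hD, hD', coeff_rescale, coeff_mk]
    rw [pow_mul]
    norm_num
  have e6 : coeff (2 * (m + 1)) D = b a (2 * (m + 1)) := by
    simp only [hD, coeff_mk]
  rw [e4, e5, e6] at hc
  linarith

theorem b_val {a : ℕ → ℤ} (ha : ∀ j, a j = 1 ∨ a j = -1) (t : ℕ) :
    b a t = 0 ∨ b a t = 1 ∨ b a t = -1 := by
  cases t with
  | zero => exact Or.inl (b_zero a)
  | succ t =>
    have h1 := two_b ha t
    rcases ha (t + 1) with h | h <;> rcases ha t with h' | h' <;> rw [h, h'] at h1 <;> omega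

/-- sum of a symmetric function -/
theorem sum_sym (g : ℕ → ℤ) (k : ℕ) (h : ∀ i, i ≤ 2 * k → g (2 * k - i) = g i) :
    ∑ i ∈ range (2 * k + 1), g i = 2 * ∑ i ∈ range k, g i + g k := by
  have h1 : 2 * k + 1 = (k + 1) + k := by ring
  rw [h1, sum_range_add, sum_range_succ]
  have h2 : ∑ x ∈ range k, g (k + 1 + x) = ∑ x ∈ range k, g x := by
    rw [← sum_range_reflect g k]
    refine sum_congr rfl fun x hx => ?_
    have hx' := mem_range.1 hx
    rw [← h (k + 1 + x) (by omega)]
    congr 1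
    omega
  rw [h2]
  ring

theorem b_rec2 {a : ℕ → ℤ} (ha : ∀ j, a j = 1 ∨ a j = -1) (ha0 : a 0 = 1) {n : ℕ} (hn : n % 2 = 1)
    (hC : ∀ u, 1 ≤ u → u < n → |Cc n a u| ≤ 1) {k : ℕ} (hk1 : 1 ≤ k) (hk : 2 * k + 3 ≤ n) :
    b a (2 * k) = - (2 * ∑ i ∈ range k, b a i * ((-1) ^ (2 * k - i) * b a (2 * k - i)) +
      b a k * ((-1) ^ k * b a k)) := by
  rw [b_rec ha ha0 hn hC hk1 hk, Finset.Nat.sum_antidiagonal_eq_sum_range_succ_mk]
  have h := sum_sym (fun i => b a i * ((-1) ^ (2 * k - i) * b a (2 * k - i))) k (fun i hi => by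
    have h1 : 2 * k - (2 * k - i) = i := by omega
    simp only [h1]
    have h2 : ((-1 : ℤ)) ^ i = (-1) ^ (2 * k - i) := by
      have h3 : ((-1 : ℤ)) ^ i * (-1) ^ (2 * k - i) = 1 := by
        rw [← pow_add, show i + (2 * k - i) = 2 * k by omega, pow_mul]
        norm_num
      rcases neg_one_pow_eq_or ℤ i with h4 | h4 <;> rcases neg_one_pow_eq_or ℤ (2 * k - i) with h5 | h5 <;>
        rw [h4, h5] at h3 ⊢ <;> norm_num at h3
    rw [h2]
    ring)
  have h1 : 2 * k - k = k := by omega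
  simp only [h1] at h
  rw [h]

/-- a vanishing half difference at `k` gives one at `2 k` -/
theorem b_half {a : ℕ → ℤ} (ha : ∀ j, a j = 1 ∨ a j = -1) (ha0 : a 0 = 1) {n : ℕ} (hn : n % 2 = 1)
    (hC : ∀ u, 1 ≤ u → u < n → |Cc n a u| ≤ 1) {k : ℕ} (hk1 : 1 ≤ k) (hk : 2 * k + 3 ≤ n)
    (h0 : b a k = 0) : b a (2 * k) = 0 := by
  have h := b_rec2 ha ha0 hn hC hk1 hk
  rw [h0, zero_mul, add_zero] at h
  rcases b_val ha (2 * k) with h1 | h1 | h1 <;> omega

/-- reflection -/
theorem b_refl {a : ℕ → ℤ} (ha : ∀ j, a j = 1 ∨ a j = -1) {n : ℕ} (hn : n % 2 = 1)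
    (hC : ∀ u, 1 ≤ u → u < n → |Cc n a u| ≤ 1) {t : ℕ} (ht1 : 1 ≤ t) (ht : t < n)
    (h0 : b a t = 0) : b a (n - t) ≠ 0 := by
  obtain ⟨u, rfl⟩ : ∃ u, t = u + 1 := ⟨t - 1, by omega⟩
  have h1 := two_b ha u
  have h2 := two_b ha (n - 1 - (u + 1))
  have h3 : n - 1 - (u + 1) + 1 = n - (u + 1) := by omega
  rw [h3] at h2
  have h4 := skew ha hn hC (u := u) (by omega)
  have h5 := skew ha hn hC (u := u + 1) (by omega)
  have h6 : n - 1 - u = n - (u + 1) := by omega
  rw [h6] at h4
  rw [h4, h5] at h2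
  intro h7
  rw [h7] at h2
  rw [h0] at h1
  have h8 : a (u + 1) = a u := by linarith
  rw [h8, pow_succ] at h2
  have h9 : ep n * (-1) ^ u * a u = 0 := by linarith
  have h10 := sq_one (ha u)
  have h11 := ep_sq n
  have h12 : ep n ≠ 0 := by
    intro h; rw [h] at h11; norm_num at h11
  have h13 : a u ≠ 0 := by
    intro h; rw [h] at h10; norm_num at h10
  have h14 : ((-1 : ℤ)) ^ u ≠ 0 := pow_ne_zero _ (by norm_num)
  exact mul_ne_zero (mul_ne_zero h12 h14) h13 h9

/-- **block structure** -/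
theorem blocks {a : ℕ → ℤ} (ha : ∀ j, a j = 1 ∨ a j = -1) (ha0 : a 0 = 1) {n : ℕ} (hn : n % 2 = 1)
    (hC : ∀ u, 1 ≤ u → u < n → |Cc n a u| ≤ 1) {p : ℕ} (hp1 : 3 ≤ p) (hpo : p % 2 = 1)
    (hpm : ∀ t, 1 ≤ t → t < p → b a t = 0) (hpb : b a p ≠ 0) (q : ℕ) :
    1 ≤ q → b a q ≠ 0 → q + p + 2 ≤ n → p ∣ q := by
  induction q using Nat.strong_induction_on with
  | _ q ih =>
    intro hq1 hq hqn
    by_contra hd
    have hqp : p < q := by
      rcases Nat.lt_trichotomy q p with h | h | h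
      · exact absurd (hpm q hq1 h) hq
      · exact absurd (h ▸ dvd_rfl) hd
      · exact h
    rcases Nat.even_or_odd q with he | ho
    · obtain ⟨k, hk⟩ := he
      have hk' : q = 2 * k := by omega
      have hbk : b a k ≠ 0 := by
        intro h0
        apply hq
        rw [hk']
        exact b_half ha ha0 hn hC (by omega) (by omega) h0
      have := ih k (by omega) (by omega) hbk (by omega)
      exact hd (hk' ▸ Dvd.dvd.mul_left this 2)
    · have hqo := Nat.odd_iff.1 ho
      obtain ⟨k, hk⟩ : ∃ k, p + q = 2 * k := ⟨(p + q) / 2, by omega⟩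
      have hrec := b_rec2 ha ha0 hn hC (k := k) (by omega) (by omega)
      have hbk : b a k = 0 := by
        by_contra h0
        have h1 := ih k (by omega) (by omega) h0 (by omega)
        have h2 : p ∣ p + q := hk ▸ Dvd.dvd.mul_left h1 2
        exact hd ((Nat.dvd_add_right dvd_rfl).1 h2)
      rw [hbk, zero_mul, add_zero] at hrec
      have hsum : ∑ i ∈ range k, b a i * ((-1) ^ (2 * k - i) * b a (2 * k - i)) =
          b a p * ((-1) ^ (2 * k - p) * b a (2 * k - p)) := by
        refine sum_eq_single_of_mem p (mem_range.2 (by omega)) fun i hi hip => ?_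
        have hi' := mem_range.1 hi
        by_cases hb0 : b a i = 0
        · rw [hb0, zero_mul]
        have hi1 : 1 ≤ i := by
          rcases Nat.eq_zero_or_pos i with h | h
          · exact absurd (h ▸ b_zero a) hb0
          · exact h
        have h1 := ih i (by omega) hi1 hb0 (by omega)
        obtain ⟨c, hc⟩ := h1
        have hc2 : 2 ≤ c := by
          rcases Nat.lt_or_ge c 2 with h | h
          · interval_cases c
            · omega
            · exact absurd (by omega) hip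
          · exact h
        have hi2 : 2 * p ≤ i := by
          rw [hc]; nlinarith
        by_cases hb1 : b a (2 * k - i) = 0
        · rw [hb1, mul_zero, mul_zero]
        · exfalso
          have h2 := ih (2 * k - i) (by omega) (by omega) hb1 (by omega)
          have h3 : p ∣ (2 * k - i) + i := Dvd.dvd.add h2 ⟨c, hc⟩
          have h4 : (2 * k - i) + i = p + q := by omega
          rw [h4] at h3
          exact hd ((Nat.dvd_add_right dvd_rfl).1 h3)
      have h5 : 2 * k - p = q := by omega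
      rw [hsum, h5, ho.neg_one_pow] at hrec
      rcases b_val ha p with h | h | h
      · exact hpb h
      · rcases b_val ha q with h' | h' | h'
        · exact hq h'
        · rw [h, h'] at hrec
          rcases b_val ha (2 * k) with h'' | h'' | h'' <;> rw [h''] at hrec <;> norm_num at hrec
        · rw [h, h'] at hrec
          rcases b_val ha (2 * k) with h'' | h'' | h'' <;> rw [h''] at hrec <;> norm_num at hrec
      · rcases b_val ha q with h' | h' | h'
        · exact hq h'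
        · rw [h, h'] at hrec
          rcases b_val ha (2 * k) with h'' | h'' | h'' <;> rw [h''] at hrec <;> norm_num at hrec
        · rw [h, h'] at hrec
          rcases b_val ha (2 * k) with h'' | h'' | h'' <;> rw [h''] at hrec <;> norm_num at hrec

/-- lower bound for the second autocorrelation -/
theorem corr_two {a : ℕ → ℤ} (ha : ∀ j, a j = 1 ∨ a j = -1) {n : ℕ} (hn : n % 2 = 1)
    (hC : ∀ u, 1 ≤ u → u < n → |Cc n a u| ≤ 1) {p : ℕ} (hp1 : 3 ≤ p) (hp : 2 * p ≤ n + 1)
    (hpm : ∀ t, 1 ≤ t → t < p → b a t = 0) : 4 * p ≤ n + 7 := by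
  have h1 := (abs_le.1 (hC 2 (by omega) (by omega))).2
  unfold Cc at h1
  obtain ⟨m, hm⟩ : ∃ m, n - 2 = (p - 2) + m + (p - 2) := ⟨n + 2 - 2 * p, by omega⟩
  rw [hm, sum_range_add, sum_range_add] at h1
  have s1 : ∑ x ∈ range (p - 2), a x * a (x + 2) = ((p - 2 : ℕ) : ℤ) := by
    rw [sum_congr rfl (g := fun _ => (1 : ℤ)) fun x hx => ?_]
    · simp
    · have hx' := mem_range.1 hx
      have e1 := two_b ha x
      have e2 := two_b ha (x + 1)
      rw [hpm (x + 1) (by omega) (by omega)] at e1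
      rw [hpm (x + 1 + 1) (by omega) (by omega)] at e2
      have e3 : a (x + 2) = a x := by
        have : a (x + 1 + 1) = a (x + 2) := rfl
        linarith
      rw [e3]
      exact sq_one (ha x)
  have s2 : ∑ x ∈ range (p - 2), a (p - 2 + m + x) * a (p - 2 + m + x + 2) = ((p - 2 : ℕ) : ℤ) := by
    rw [sum_congr rfl (g := fun _ => (1 : ℤ)) fun x hx => ?_]
    · simp
    · have hx' := mem_range.1 hx
      set y := p - 2 + m + x with hy
      have e1 := two_b ha y
      have e2 := two_b ha (y + 1)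
      have f1 := b_refl ha hn hC (t := n - (y + 1)) (by omega) (by omega)
        (hpm _ (by omega) (by omega))
      have f2 := b_refl ha hn hC (t := n - (y + 2)) (by omega) (by omega)
        (hpm _ (by omega) (by omega))
      have g1 : n - (n - (y + 1)) = y + 1 := by omega
      have g2 : n - (n - (y + 2)) = y + 1 + 1 := by omega
      rw [g1] at f1
      rw [g2] at f2
      have k1 : a (y + 1) = - a y := by
        rcases ha (y + 1) with h | h <;> rcases ha y with h' | h' <;> rw [h, h'] at e1 ⊢ <;>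
          first | norm_num; done | (exact absurd (by omega) f1)
      have k2 : a (y + 1 + 1) = - a (y + 1) := by
        rcases ha (y + 1 + 1) with h | h <;> rcases ha (y + 1) with h' | h' <;> rw [h, h'] at e2 ⊢ <;>
          first | norm_num; done | (exact absurd (by omega) f2)
      have k3 : a (y + 2) = a y := by
        have : a (y + 1 + 1) = a (y + 2) := rfl
        linarith
      rw [k3]
      exact sq_one (ha y)
  have s3 : -(m : ℤ) ≤ ∑ x ∈ range m, a (p - 2 + x) * a (p - 2 + x + 2) := by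
    have h : ∑ x ∈ range m, (-1 : ℤ) ≤ ∑ x ∈ range m, a (p - 2 + x) * a (p - 2 + x + 2) := by
      refine sum_le_sum fun x _ => ?_
      rcases mul_pm (ha (p - 2 + x)) (ha (p - 2 + x + 2)) with h | h <;> rw [h] <;> norm_num
    simpa using h
  rw [s1, s2] at h1
  omega

theorem ne_nine {a : ℕ → ℤ} (ha : ∀ j, a j = 1 ∨ a j = -1) (ha0 : a 0 = 1) (ha1 : a 1 = 1)
    (hC : ∀ u, 1 ≤ u → u < 9 → |Cc 9 a u| ≤ 1) : False := by
  have h2 := corr_even ha (n := 9) rfl hC (u := 2) (by norm_num) (by norm_num) rfl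
  have h4 := corr_even ha (n := 9) rfl hC (u := 4) (by norm_num) (by norm_num) rfl
  have h6 := corr_even ha (n := 9) rfl hC (u := 6) (by norm_num) (by norm_num) rfl
  have k0 := skew ha (n := 9) rfl hC (u := 0) (by norm_num)
  have k1 := skew ha (n := 9) rfl hC (u := 1) (by norm_num)
  have k2 := skew ha (n := 9) rfl hC (u := 2) (by norm_num)
  have k3 := skew ha (n := 9) rfl hC (u := 3) (by norm_num)
  have he : ep 9 = 1 := rfl
  rw [he] at h2 h4 h6 k0 k1 k2 k3
  norm_num at k0 k1 k2 k3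
  simp only [Cc, sum_range_succ, sum_range_zero, Nat.reduceSub, Nat.reduceAdd, zero_add] at h2 h4 h6
  rw [ha0] at k0
  rw [ha1] at k1
  rcases ha 2 with e2 | e2 <;> rcases ha 3 with e3 | e3 <;> rcases ha 4 with e4 | e4 <;>
    rw [e2] at k2 <;> rw [e3] at k3 <;>
    simp only [k0, k1, k2, k3, ha0, ha1, e2, e3, e4] at h2 h4 h6 <;> clear hC ha <;> omega

/-- normalised form -/
theorem odd_norm {a : ℕ → ℤ} (ha : ∀ j, a j = 1 ∨ a j = -1) (ha0 : a 0 = 1) (ha1 : a 1 = 1)
    {n : ℕ} (hn : n % 2 = 1) (hC : ∀ u, 1 ≤ u → u < n → |Cc n a u| ≤ 1) :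
    n = 1 ∨ n = 3 ∨ n = 5 ∨ n = 7 ∨ n = 11 ∨ n = 13 := by
  by_contra hcon
  have hn5 : 5 ≤ n := by omega
  have hn9 : n ≠ 9 := by
    rintro rfl
    exact ne_nine ha ha0 ha1 hC
  have hb1 : b a 1 = 0 := by
    have := two_b ha 0
    rw [zero_add, ha0, ha1] at this
    omega
  have hex : ∃ t, 1 ≤ t ∧ b a t ≠ 0 :=
    ⟨n - 1, by omega, b_refl ha hn hC le_rfl (by omega) hb1⟩
  classical
  obtain ⟨p, hp1, hpb, hpm⟩ : ∃ p, 1 ≤ p ∧ b a p ≠ 0 ∧ ∀ t, 1 ≤ t → t < p → b a t = 0 := by
    refine ⟨Nat.find hex, (Nat.find_spec hex).1, (Nat.find_spec hex).2, fun t h1 h2 => ?_⟩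
    by_contra h
    exact Nat.find_min hex h2 ⟨h1, h⟩
  have hp2 : 2 ≤ p := by
    by_contra h
    have : p = 1 := by omega
    exact hpb (this ▸ hb1)
  have hpn : p ≤ n - 1 := by
    by_contra h
    exact b_refl ha hn hC le_rfl (by omega) hb1 (hpm _ (by omega) (by omega))
  have hp3 : 2 * p ≤ n + 1 := by
    by_contra h
    exact b_refl ha hn hC (t := p - 1) (by omega) (by omega) (hpm _ (by omega) (by omega))
      (hpm _ (by omega) (by omega))
  have hpo : p % 2 = 1 := by
    by_contra h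
    obtain ⟨k, hk⟩ : ∃ k, p = 2 * k := ⟨p / 2, by omega⟩
    rw [hk] at hpb
    exact hpb (b_half ha ha0 hn hC (by omega) (by omega) (hpm k (by omega) (by omega)))
  have hp3' : 3 ≤ p := by omega
  have hbl := blocks ha ha0 hn hC hp3' hpo hpm hpb
  have hA : ∀ t, p + 2 ≤ t → t + p + 2 ≤ n → ¬ p ∣ t → p ∣ n - t := by
    intro t h1 h2 h3
    have h4 : b a t = 0 := by
      by_contra h
      exact h3 (hbl t (by omega) h h2)
    exact hbl (n - t) (by omega) (b_refl ha hn hC (by omega) (by omega) h4) (by omega)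
  have hB : ∀ t, p + 2 ≤ t → t + 1 + p + 2 ≤ n → ¬ p ∣ t → p ∣ t + 1 := by
    intro t h1 h2 h3
    by_contra h4
    have h5 := hA t h1 (by omega) h3
    have h6 := hA (t + 1) (by omega) h2 h4
    have h7 : n - t = (n - (t + 1)) + 1 := by omega
    rw [h7] at h5
    have h8 := (Nat.dvd_add_right h6).1 h5
    have := Nat.le_of_dvd one_pos h8
    omega
  have hc2 := corr_two ha hn hC hp3' hp3 hpm
  rcases Nat.lt_or_ge p 5 with h5 | h5
  · have hp : p = 3 := by omega
    subst hp
    have : n ≤ 12 := by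
      by_contra h
      have := hB 7 (by norm_num) (by omega) (by norm_num)
      norm_num at this
    omega
  · have : n ≤ 2 * p + 4 := by
      by_contra h
      have h1 : ¬ p ∣ p + 2 := by
        intro h
        have h' := (Nat.dvd_add_right (dvd_refl p)).1 h
        have := Nat.le_of_dvd (by norm_num) h'
        omega
      have h2 := hB (p + 2) le_rfl (by omega) h1
      have h3 : p ∣ p + 3 := h2
      have h' := (Nat.dvd_add_right (dvd_refl p)).1 h3
      have := Nat.le_of_dvd (by norm_num) h'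
      omega
    omega

/-- **Turyn-Storer theorem**: Barker sequences of odd length exist only for the lengths
`1, 3, 5, 7, 11, 13`. -/
theorem odd_barker (n : ℕ) (hn : Odd n) (a : ℕ → ℤ) (ha : ∀ j < n, a j = 1 ∨ a j = -1)
    (hC : ∀ k, 1 ≤ k → k < n → |∑ j ∈ Finset.range (n - k), a j * a (j + k)| ≤ 1) :
    n = 1 ∨ n = 3 ∨ n = 5 ∨ n = 7 ∨ n = 11 ∨ n = 13 := by
  rcases Nat.lt_or_ge n 2 with h2 | h2
  · have := Nat.odd_iff.1 hn
    omega
  have e0 := sq_one (ha 0 (by omega))
  have e1 := sq_one (ha 1 (by omega))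
  have hτ := mul_pm (ha 0 (by omega)) (ha 1 (by omega))
  set τ : ℤ := a 0 * a 1 with hτd
  have hτs := sq_one hτ
  have hτp : ∀ j : ℕ, τ ^ j = 1 ∨ τ ^ j = -1 := by
    intro j
    rcases hτ with h | h <;> rw [h]
    · left; simp
    · exact neg_one_pow_eq_or ℤ j
  set a' : ℕ → ℤ := fun j => if j < n then a 0 * τ ^ j * a j else 1 with ha'
  have h1 : ∀ j, a' j = 1 ∨ a' j = -1 := by
    intro j
    simp only [ha']
    split_ifs with h
    · exact mul_pm (mul_pm (ha 0 (by omega)) (hτp j)) (ha j h)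
    · exact Or.inl rfl
  refine odd_norm (a := a') h1 ?_ ?_ (Nat.odd_iff.1 hn) ?_
  · simp only [ha']
    rw [if_pos (by omega), pow_zero, mul_one, e0]
  · simp only [ha']
    rw [if_pos (by omega), pow_one, mul_right_comm, ← hτd, hτs]
  · intro u hu1 hu
    have h3 : Cc n a' u = τ ^ u * ∑ j ∈ Finset.range (n - u), a j * a (j + u) := by
      unfold Cc
      rw [mul_sum]
      refine sum_congr rfl fun j hj => ?_
      have hj' := mem_range.1 hj
      simp only [ha']
      rw [if_pos (by omega), if_pos (by omega), pow_add]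
      have h4 := sq_one (hτp j)
      linear_combination (τ ^ u * a j * a (j + u) * (τ ^ j * τ ^ j)) * e0 +
        (τ ^ u * a j * a (j + u)) * h4
    rw [h3, abs_mul]
    have h4 : |τ ^ u| = 1 := by
      rcases hτp u with h | h <;> rw [h] <;> norm_num
    rw [h4, one_mul]
    exact hC u hu1 hu

end Vale.Agent.P033.H904
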